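import Vale.Agent.P234.Final

namespace Vale.Agent.Results.P234.Villani

open scoped ContDiff Manifold
open Vale.Agent.P255 Vale.Agent.P234

theorem result {E M : Type*} [NormedAddCommGroup E] [NormedSpace ℝ E] [FiniteDimensional ℝ E]
    [TopologicalSpace M] [ChartedSpace E M] [IsManifold 𝓘(ℝ, E) ∞ M] [T2Space M] [CompactSpace M]
    [ConnectedSpace M] (g : Metric E M) (h : WeakMTW g) (x : M) : Convex ℝ (injDom g x) :=
  villani h x

end Vale.Agent.Results.P234.Villani
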